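import Vale.Agent.P180.R2.H799.BN1
import Vale.Agent.P180.R2.H799.Chain

/-!
P180: cuspidality of the blocks of a Levi subgroup with central defect groups, the algebra.
-/

set_option linter.all false

namespace Vale.Agent.P180.R2.H799.BN

open Vale.Agent.P180 Vale.Agent.P180.H768.Gd Vale.Agent.P180.R2.H799

section Nak

variable {k A : Type*} [Field k] [Ring A] [Algebra k A]

/-- A form of Nakayama's lemma for commuting nilpotent elements. -/
theorem nak (T : Finset A) : (∀ t ∈ T, IsNilpotent t) → (∀ s ∈ T, ∀ t ∈ T, s * t = t * s) →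
    ∀ M₀ M : Submodule k A, (∀ t ∈ T, ∀ x ∈ M₀, t * x ∈ M₀) → (∀ t ∈ T, ∀ x ∈ M, t * x ∈ M) →
    M ≤ M₀ ⊔ Submodule.span k {w | ∃ t ∈ T, ∃ x ∈ M, w = t * x} → M ≤ M₀ := by
  classical
  induction T using Finset.induction_on with
  | empty =>
    intro _ _ M₀ M _ _ h
    have h1 : {w : A | ∃ t ∈ (∅ : Finset A), ∃ x ∈ M, w = t * x} = ∅ := by
      ext w; simp
    rwa [h1, Submodule.span_empty, sup_bot_eq] at h
  | insert t T ht ih =>
    intro hn hc M₀ M hM₀ hM h
    have htT : t ∈ insert t T := Finset.mem_insert_self t T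
    have hT : ∀ s ∈ T, s ∈ insert t T := fun s hs => Finset.mem_insert_of_mem hs
    -- the submodule `M₀ + t M`
    let M₁ : Submodule k A := M₀ ⊔ M.map (LinearMap.mulLeft k t)
    have hM₁ : ∀ s ∈ T, ∀ x ∈ M₁, s * x ∈ M₁ := by
      intro s hs x hx
      obtain ⟨y, hy, _, ⟨z, hz, rfl⟩, rfl⟩ := Submodule.mem_sup.mp hx
      rw [mul_add]
      refine Submodule.add_mem_sup (hM₀ s (hT s hs) y hy) ⟨s * z, hM s (hT s hs) z hz, ?_⟩
      rw [LinearMap.mulLeft_apply, LinearMap.mulLeft_apply, ← mul_assoc, ← mul_assoc,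
        hc s (hT s hs) t htT]
    have h1 : M ≤ M₁ := by
      refine ih (fun s hs => hn s (hT s hs)) (fun s hs u hu => hc s (hT s hs) u (hT u hu)) M₁ M hM₁
        (fun s hs => hM s (hT s hs)) (h.trans ?_)
      refine sup_le (le_sup_of_le_left le_sup_left) (Submodule.span_le.mpr ?_)
      rintro _ ⟨s, hs, x, hx, rfl⟩
      rcases Finset.mem_insert.mp hs with rfl | hs
      · exact Submodule.mem_sup_left (Submodule.mem_sup_right ⟨x, hx, rfl⟩)
      · exact Submodule.mem_sup_right (Submodule.subset_span ⟨s, hs, x, hx, rfl⟩)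
    have h2 : ∀ n, ∀ x ∈ M, ∃ y ∈ M₀, ∃ z ∈ M, x = y + t ^ n * z := by
      intro n
      induction n with
      | zero => exact fun x hx => ⟨0, zero_mem _, x, hx, by simp⟩
      | succ n ihn =>
        intro x hx
        obtain ⟨y, hy, z, hz, rfl⟩ := ihn x hx
        obtain ⟨y', hy', _, ⟨z', hz', rfl⟩, rfl⟩ := Submodule.mem_sup.mp (h1 hz)
        refine ⟨y + t ^ n * y', Submodule.add_mem _ hy ?_, z', hz', ?_⟩
        · have : ∀ m, t ^ m * y' ∈ M₀ := by
            intro m
            induction m with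
            | zero => simpa using hy'
            | succ m ihm =>
              rw [pow_succ', mul_assoc]
              exact hM₀ t htT _ ihm
          exact this n
        · rw [LinearMap.mulLeft_apply, mul_add, pow_succ]
          simp only [mul_assoc, add_assoc]
    intro x hx
    obtain ⟨n, hn'⟩ := hn t htT
    obtain ⟨y, hy, z, hz, rfl⟩ := h2 n x hx
    rw [hn', zero_mul, add_zero]
    exact hy

end Nak

section Cusp

variable {k : Type*} [Field k] {p : ℕ} [Fact p.Prime] [CharP k p] {G : Type*} [Group G] [Finite G]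

/-- The algebra of the cuspidality lemma. -/
theorem cusp_alg {Q Z L : Subgroup G} (hZL : Z ≤ L) (hZ : IsPGroup p Z)
    (hZab : ∀ x ∈ Z, ∀ y ∈ Z, x * y = y * x) (hQc : ∀ q ∈ Q, ∀ l ∈ L, q * l = l * q)
    (hZQ : ∃ z ∈ Z, z ∉ Q) {e a : MonoidAlgebra k G} (haL : a ∈ SubAlg k L)
    (ha : a ∈ Fix (cj k G) Q) (heL : e ∈ SubAlg k L) (hea : e = tr (cj k G) Q L a) (hee : e * e = e)
    {ν η ε : MonoidAlgebra k G} (hν : ν ∈ SubAlg k L) (hη : ∀ x ∈ SubAlg k L, x * η = η * x)
    (hηη : η * η = η) (hε : ε = ν * η) (hεε : ε * ε = ε)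
    (hZε : ∀ z ∈ Z, MonoidAlgebra.single z (1 : k) * ε = ε * MonoidAlgebra.single z 1)
    (hkey : ∀ g ∈ L, e * ε * MonoidAlgebra.single g 1 * ε = 0 ∨ ∀ z ∈ Z, ∃ z' ∈ Z,
      ε * MonoidAlgebra.single g 1 * ε * MonoidAlgebra.single z 1 =
        MonoidAlgebra.single z' 1 * (ε * MonoidAlgebra.single g 1 * ε)) : e * ε = 0 := by
  classical
  have heF : e ∈ Fix (cj k G) L := by rw [hea]; exact tr_mem_Fix ha
  have hec : ∀ x ∈ SubAlg k L, e * x = x * e := fun x hx => (commute_of_mem hx heF).symm
  have heε : e * ε = ε * e := by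
    rw [hε, ← mul_assoc, hec ν hν, mul_assoc, hη e heL, mul_assoc]
  have hηε : η * ε = ε := by rw [hε, ← mul_assoc, ← hη ν hν, mul_assoc, hηη]
  have hzL : ∀ z ∈ Z, MonoidAlgebra.single z (1 : k) ∈ SubAlg k L := fun z hz =>
    single_mem_SubAlg (hZL hz) 1
  let M : Submodule k (MonoidAlgebra k G) :=
    { carrier := {y | ∃ x ∈ SubAlg k L, y = e * ε * x * ε}
      zero_mem' := ⟨0, zero_mem _, by simp⟩
      add_mem' := by
        rintro _ _ ⟨x, hx, rfl⟩ ⟨y, hy, rfl⟩
        exact ⟨x + y, add_mem hx hy, by rw [mul_add, add_mul]⟩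
      smul_mem' := by
        rintro c _ ⟨x, hx, rfl⟩
        exact ⟨c • x, Subalgebra.smul_mem _ hx c, by rw [mul_smul_comm, smul_mul_assoc]⟩ }
  have hM : ∀ {y}, y ∈ M ↔ ∃ x ∈ SubAlg k L, y = e * ε * x * ε := Iff.rfl
  let M' : Submodule k (MonoidAlgebra k G) :=
    Submodule.span k {w | ∃ z ∈ Z, ∃ x ∈ M, w = MonoidAlgebra.single z (1 : k) * x - x}
  have hMleft : ∀ z ∈ Z, ∀ x ∈ M, MonoidAlgebra.single z (1 : k) * x ∈ M := by
    rintro z hz _ ⟨x, hx, rfl⟩
    refine ⟨MonoidAlgebra.single z 1 * x, Subalgebra.mul_mem _ (hzL z hz) hx, ?_⟩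
    calc MonoidAlgebra.single z (1 : k) * (e * ε * x * ε)
        = (MonoidAlgebra.single z (1 : k) * e) * ε * x * ε := by simp only [mul_assoc]
      _ = e * (MonoidAlgebra.single z (1 : k) * ε) * x * ε := by
          rw [← hec _ (hzL z hz)]; simp only [mul_assoc]
      _ = e * ε * (MonoidAlgebra.single z 1 * x) * ε := by
          rw [hZε z hz]; simp only [mul_assoc]
  have hMright : ∀ z ∈ Z, ∀ x ∈ M, x * MonoidAlgebra.single z (1 : k) ∈ M := by
    rintro z hz _ ⟨x, hx, rfl⟩
    refine ⟨x * MonoidAlgebra.single z 1, Subalgebra.mul_mem _ hx (hzL z hz), ?_⟩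
    rw [mul_assoc, ← hZε z hz]
    simp only [mul_assoc]
  have hright : ∀ z ∈ Z, ∀ x ∈ M, x * MonoidAlgebra.single z (1 : k) - x ∈ M' := by
    rintro z hz _ ⟨x, hx, rfl⟩
    refine SuppIn.induction (P := fun x => e * ε * x * ε * MonoidAlgebra.single z (1 : k) -
      e * ε * x * ε ∈ M') hx ?_ ?_ ?_
    · simp
    · intro x y h1 h2
      have h3 := add_mem h1 h2
      have e1 : e * ε * (x + y) * ε * MonoidAlgebra.single z (1 : k) - e * ε * (x + y) * ε =
          (e * ε * x * ε * MonoidAlgebra.single z (1 : k) - e * ε * x * ε) +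
          (e * ε * y * ε * MonoidAlgebra.single z (1 : k) - e * ε * y * ε) := by
        simp only [mul_add, add_mul]; abel
      rw [e1]; exact h3
    · intro g hg c
      have e1 : e * ε * (c • MonoidAlgebra.single g (1 : k)) * ε * MonoidAlgebra.single z (1 : k) -
          e * ε * (c • MonoidAlgebra.single g (1 : k)) * ε =
          c • (e * ε * MonoidAlgebra.single g (1 : k) * ε * MonoidAlgebra.single z (1 : k) -
            e * ε * MonoidAlgebra.single g (1 : k) * ε) := by
        simp only [mul_smul_comm, smul_mul_assoc, smul_sub]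
      rw [e1]
      refine Submodule.smul_mem _ c ?_
      rcases hkey g hg with h | h
      · rw [h, zero_mul, sub_zero]; exact zero_mem _
      · obtain ⟨z', hz', h'⟩ := h z hz
        refine Submodule.subset_span ⟨z', hz', e * ε * MonoidAlgebra.single g 1 * ε,
          ⟨_, single_mem_SubAlg hg 1, rfl⟩, ?_⟩
        congr 1
        calc e * ε * MonoidAlgebra.single g (1 : k) * ε * MonoidAlgebra.single z (1 : k)
            = e * (ε * MonoidAlgebra.single g (1 : k) * ε * MonoidAlgebra.single z (1 : k)) := by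
              simp only [mul_assoc]
          _ = (e * MonoidAlgebra.single z' 1) * (ε * MonoidAlgebra.single g 1 * ε) := by
              rw [h']; simp only [mul_assoc]
          _ = _ := by rw [hec _ (hzL z' hz')]; simp only [mul_assoc]
  -- right multiplication by `b ε`
  have hMb : ∀ y ∈ M, ∀ b ∈ SubAlg k L, y * b * ε ∈ M := by
    rintro _ ⟨x, hx, rfl⟩ b hb
    refine ⟨x * ν * b, Subalgebra.mul_mem _ (Subalgebra.mul_mem _ hx hν) hb, ?_⟩
    calc e * ε * x * ε * b * ε = e * ε * x * (ν * η) * b * ε := by rw [← hε]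
      _ = e * ε * x * ν * (η * b) * ε := by simp only [mul_assoc]
      _ = e * ε * x * ν * b * (η * ε) := by rw [← hη b hb]; simp only [mul_assoc]
      _ = _ := by rw [hηε]; simp only [mul_assoc]
  have hcjL : ∀ g ∈ L, cj k G g a ∈ SubAlg k L := by
    intro g hg h hh
    rw [cj_coeff] at hh
    have h1 := L.mul_mem (L.mul_mem hg (haL _ hh)) (L.inv_mem hg)
    have e1 : g * (g⁻¹ * h * g) * g⁻¹ = h := by group
    rwa [e1] at h1
  have hMM' : M ≤ M' := by
    intro y hy
    by_contra hyM'
    obtain ⟨lam, hlam, hker⟩ := Submodule.exists_le_ker_of_notMem hyM'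
    apply hlam
    have _ := Fintype.ofFinite (L ⧸ Q.subgroupOf L)
    let F : G → MonoidAlgebra k G := fun g => y * cj k G g a * ε
    have hy1 : y = ∑ q : L ⧸ Q.subgroupOf L, F ((q.out : L) : G) := by
      have h1 : y * e * ε = y := by
        obtain ⟨x, hx, rfl⟩ := hy
        calc e * ε * x * ε * e * ε = e * ε * x * (ε * e) * ε := by simp only [mul_assoc]
          _ = e * ε * (x * e) * (ε * ε) := by rw [← heε]; simp only [mul_assoc]
          _ = e * (ε * e) * x * ε := by rw [← hec x hx, hεε]; simp only [mul_assoc]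
          _ = (e * e) * ε * x * ε := by rw [← heε]; simp only [mul_assoc]
          _ = _ := by rw [hee]
      conv_lhs => rw [← h1, hea, tr_def, Finset.mul_sum, Finset.sum_mul]
    let α : Z →* Equiv.Perm (L ⧸ Q.subgroupOf L) :=
      (MulAction.toPermHom L (L ⧸ Q.subgroupOf L)).comp (Subgroup.inclusion hZL)
    have hα : ∀ (v : Z) (x : L), α v (x : L ⧸ Q.subgroupOf L) =
        ((⟨v, hZL v.2⟩ * x : L) : L ⧸ Q.subgroupOf L) := fun _ _ => rfl
    have hout : ∀ x : L, F ((((x : L ⧸ Q.subgroupOf L).out : L)) : G) = F (x : G) := by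
      intro x
      have h1 : (x : L)⁻¹ * (x : L ⧸ Q.subgroupOf L).out ∈ Q.subgroupOf L := by
        rw [← QuotientGroup.eq, QuotientGroup.out_eq']
      have h2 := ha _ (Subgroup.mem_subgroupOf.mp h1)
      rw [Subgroup.coe_mul, Subgroup.coe_inv, map_mul_act] at h2
      have h3 : cj k G (((x : L ⧸ Q.subgroupOf L).out : L) : G) a = cj k G (x : G) a := by
        calc cj k G (((x : L ⧸ Q.subgroupOf L).out : L) : G) a
            = cj k G (x : G) (cj k G (x : G)⁻¹
              (cj k G (((x : L ⧸ Q.subgroupOf L).out : L) : G) a)) := by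
              rw [map_act_inv]
          _ = cj k G (x : G) a := by rw [h2]
      change y * cj k G (((x : L ⧸ Q.subgroupOf L).out : L) : G) a * ε = _
      rw [h3]
    have hFM : ∀ g ∈ L, F g ∈ M := fun g hg => hMb y hy _ (hcjL g hg)
    have hFz : ∀ z ∈ Z, ∀ g ∈ L, lam (F (z * g)) = lam (F g) := by
      intro z hz g hg
      have hsz : MonoidAlgebra.single z (1 : k) * MonoidAlgebra.single z⁻¹ 1 = 1 := by
        rw [MonoidAlgebra.single_mul_single, mul_inv_cancel, one_mul]; rfl
      have hsz' : MonoidAlgebra.single z⁻¹ (1 : k) * MonoidAlgebra.single z 1 = 1 := by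
        rw [MonoidAlgebra.single_mul_single, inv_mul_cancel, one_mul]; rfl
      have hcz : cj k G (z * g) a = MonoidAlgebra.single z 1 * cj k G g a *
          MonoidAlgebra.single z⁻¹ 1 := by
        rw [map_mul_act, cj_eq z]
      have hzε' : MonoidAlgebra.single z⁻¹ (1 : k) * ε = ε * MonoidAlgebra.single z⁻¹ 1 :=
        hZε _ (Z.inv_mem hz)
      -- right multiplication does not change `lam`
      have hr : ∀ z ∈ Z, ∀ x ∈ M, lam (x * MonoidAlgebra.single z 1) = lam x := by
        intro z hz x hx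
        have h1 := hker (hright z hz x hx)
        rw [LinearMap.mem_ker, map_sub, sub_eq_zero] at h1
        exact h1
      have hl : ∀ z ∈ Z, ∀ x ∈ M, lam (MonoidAlgebra.single z 1 * x) = lam x := by
        intro z hz x hx
        have h1 := hker (Submodule.subset_span ⟨z, hz, x, hx, rfl⟩)
        rw [LinearMap.mem_ker, map_sub, sub_eq_zero] at h1
        exact h1
      have h1 : F (z * g) = (y * MonoidAlgebra.single z 1 * cj k G g a * ε) *
          MonoidAlgebra.single z⁻¹ 1 := by
        change y * cj k G (z * g) a * ε = _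
        rw [hcz]
        calc y * (MonoidAlgebra.single z 1 * cj k G g a * MonoidAlgebra.single z⁻¹ 1) * ε
            = y * MonoidAlgebra.single z 1 * cj k G g a *
              (MonoidAlgebra.single z⁻¹ 1 * ε) := by simp only [mul_assoc]
          _ = _ := by rw [hzε']; simp only [mul_assoc]
      have hyzM : y * MonoidAlgebra.single z 1 ∈ M := hMright z hz y hy
      rw [h1, hr z⁻¹ (Z.inv_mem hz) _ (hMb _ hyzM _ (hcjL g hg))]
      -- move `z` to the left
      have h2 : ∀ b ∈ SubAlg k L, lam (y * MonoidAlgebra.single z 1 * b * ε) = lam (y * b * ε) := by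
        intro b hb
        obtain ⟨x, hx, rfl⟩ := hy
        refine SuppIn.induction (P := fun x => lam (e * ε * x * ε * MonoidAlgebra.single z 1 *
          b * ε) = lam (e * ε * x * ε * b * ε)) hx ?_ ?_ ?_
        · simp
        · intro u v hu hv
          simp only [mul_add, add_mul, map_add]
          rw [hu, hv]
        · intro u hu c
          simp only [mul_smul_comm, smul_mul_assoc, map_smul]
          congr 1
          rcases hkey u hu with h | h
          · rw [h]; simp
          · obtain ⟨z', hz', h'⟩ := h z hz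
            have h3 : e * ε * MonoidAlgebra.single u (1 : k) * ε * MonoidAlgebra.single z (1 : k) =
                MonoidAlgebra.single z' 1 * (e * ε * MonoidAlgebra.single u 1 * ε) := by
              calc e * ε * MonoidAlgebra.single u (1 : k) * ε * MonoidAlgebra.single z (1 : k)
                  = e * (ε * MonoidAlgebra.single u (1 : k) * ε *
                    MonoidAlgebra.single z (1 : k)) := by simp only [mul_assoc]
                _ = (e * MonoidAlgebra.single z' 1) * (ε * MonoidAlgebra.single u 1 * ε) := by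
                    rw [h']; simp only [mul_assoc]
                _ = _ := by rw [hec _ (hzL z' hz')]; simp only [mul_assoc]
            rw [h3, mul_assoc, mul_assoc]
            rw [hl z' hz' _ ?_]
            · simp only [mul_assoc]
            · rw [← mul_assoc]
              exact hMb _ ⟨_, single_mem_SubAlg hu 1, rfl⟩ b hb
      exact h2 _ (hcjL g hg)
    have hsum : lam y = ∑ q : L ⧸ Q.subgroupOf L, lam (F ((q.out : L) : G)) := by
      conv_lhs => rw [hy1, map_sum]
    rw [hsum, sum_fixed hZ α (fun q => lam (F ((q.out : L) : G))) ?_ (fun _ => False) ?_]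
    · simp
    · intro v q
      obtain ⟨x, rfl⟩ := QuotientGroup.mk_surjective q
      rw [hα, hout, hout]
      exact hFz v v.2 x x.2
    · intro q
      obtain ⟨x, rfl⟩ := QuotientGroup.mk_surjective q
      refine ⟨fun h => h.elim, fun h => ?_⟩
      obtain ⟨z, hz, hzQ⟩ := hZQ
      have h1 := h ⟨z, hz⟩
      rw [hα, eq_comm, QuotientGroup.eq, Subgroup.mem_subgroupOf] at h1
      have h2 : (x : G)⁻¹ * (z * x) ∈ Q := h1
      apply hzQ
      have h3 := hQc _ h2 _ x.2
      have h4 : z = (x : G)⁻¹ * (z * x) := by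
        have h5 : (x : G)⁻¹ * (z * x) * x = z * x := by rw [h3]; group
        have h6 := mul_right_cancel h5
        exact h6.symm
      rw [h4]; exact h2
  -- Nakayama
  have hMbot : M ≤ ⊥ := by
    have _ := Fintype.ofFinite Z
    refine nak (Finset.univ.image fun z : Z => MonoidAlgebra.single (z : G) (1 : k) - 1)
      ?_ ?_ ⊥ M ?_ ?_ ?_
    · intro t ht
      obtain ⟨z, -, rfl⟩ := Finset.mem_image.mp ht
      obtain ⟨m, hm⟩ := hZ z
      have hm' : (z : G) ^ p ^ m = 1 := congrArg Subtype.val hm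
      refine ⟨p ^ m, ?_⟩
      have _ : CharP (MonoidAlgebra k G) p :=
        charP_of_injective_algebraMap (algebraMap k (MonoidAlgebra k G)).injective p
      rw [sub_pow_char_pow_of_commute p m (Commute.one_right _), one_pow,
        MonoidAlgebra.single_pow, one_pow, hm', ← MonoidAlgebra.one_def, sub_self]
    · intro s hs t ht
      obtain ⟨y, -, rfl⟩ := Finset.mem_image.mp hs
      obtain ⟨z, -, rfl⟩ := Finset.mem_image.mp ht
      have h1 : MonoidAlgebra.single (y : G) (1 : k) * MonoidAlgebra.single (z : G) 1 =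
          MonoidAlgebra.single (z : G) 1 * MonoidAlgebra.single (y : G) 1 := by
        rw [MonoidAlgebra.single_mul_single, MonoidAlgebra.single_mul_single,
          hZab y y.2 z z.2]
      have h2 : Commute (MonoidAlgebra.single (y : G) (1 : k)) (MonoidAlgebra.single (z : G) 1) := h1
      exact ((h2.sub_left (Commute.one_left _)).sub_right
        ((Commute.one_right _).sub_left (Commute.one_left _)))
    · intro t _ x hx
      rw [(Submodule.mem_bot k).mp hx, mul_zero]
      exact zero_mem _
    · intro t ht x hx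
      obtain ⟨z, -, rfl⟩ := Finset.mem_image.mp ht
      rw [sub_mul, one_mul]
      exact sub_mem (hMleft z z.2 x hx) hx
    · refine hMM'.trans (le_sup_of_le_right (Submodule.span_le.mpr ?_))
      rintro _ ⟨z, hz, x, hx, rfl⟩
      refine Submodule.subset_span ⟨MonoidAlgebra.single z 1 - 1,
        Finset.mem_image.mpr ⟨⟨z, hz⟩, Finset.mem_univ _, rfl⟩, x, hx, ?_⟩
      rw [sub_mul, one_mul]
  have h1 : e * ε ∈ M := ⟨1, Subalgebra.one_mem _, by rw [mul_one, mul_assoc, hεε]⟩
  exact (Submodule.mem_bot k).mp (hMbot h1)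

end Cusp

end Vale.Agent.P180.R2.H799.BN
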